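import Vale.Agent.P157.Bdl.B16
import Vale.Agent.P157.Bdl.B17

open MeasureTheory Filter Topology

namespace Vale.Agent.Results.P157.PerceptronFormula

open Vale.Agent.P157 Par Sph

theorem result (f : ℝ → ℝ) (hf : Measurable f) (B : ℝ) (hB : ∀ x, |f x| ≤ B) (α : ℝ)
    (hα : 0 < α) :
    (∃ L : ℝ, Tendsto (meanPressure cube α f) atTop (𝓝 L) ∧
      IsGLB {y | ∃ (k : ℕ) (m q : ℕ → ℝ), Exponents k m ∧ Path k q ∧ q k < 1 ∧
        IsLUB {y | ∃ r, Path k r ∧ y = parisi α f k m q r} y} L) ∧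
    ∃ L : ℝ, Tendsto (meanPressure usphere α f) atTop (𝓝 L) ∧
      IsGLB {y | ∃ (k : ℕ) (m q : ℕ → ℝ), Exponents k m ∧ Path k q ∧ q k < 1 ∧
        y = α * patternPart f k m q + csPart k m q} L :=
  ⟨parisi_formula_all hf hB hα, usphere_formula hf hB hα⟩

end Vale.Agent.Results.P157.PerceptronFormula
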